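import Mathlib

/-!
# P069: the norms on the tree space

`H` is the Hilbert space of square-summable functions on finitely branching-free lists of naturals.
`vec n s` is the indicator of the prefixes of `s` of length at most `n`, and
`gauge2 n` is the infimal convolution of the l1-norm of masses (pushed by `vec n`) and the l2-norm.
-/

namespace Vale.Agent.P069

open Finset

noncomputable section

/-- Nodes of the countably branching tree. -/
abbrev T : Type := List ℕ

/-- The Hilbert space on the nodes of the tree. -/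
abbrev H : Type := lp (fun _ : T => ℝ) 2

/-- The set of prefixes of `s` of length at most `n`. -/
def pref (n : ℕ) (s : T) : Finset T := s.inits.toFinset.filter (fun t => t.length ≤ n)

lemma mem_pref {n : ℕ} {s t : T} : t ∈ pref n s ↔ t <+: s ∧ t.length ≤ n := by
  simp [pref, List.mem_inits]

/-- The coordinate vector at a node. -/
def e (t : T) : H := lp.single 2 t (1 : ℝ)

lemma e_apply (t u : T) : (e t) u = if u = t then 1 else 0 := by
  classical
  simp [e, lp.single_apply, Pi.single_apply]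

lemma norm_e (t : T) : ‖e t‖ = 1 := by
  rw [e, lp.norm_single (by norm_num)]
  simp

/-- The indicator of the prefixes of `s` of length at most `n`. -/
def vec (n : ℕ) (s : T) : H := ∑ t ∈ pref n s, e t

lemma vec_apply (n : ℕ) (s t : T) :
    (vec n s) t = if t <+: s ∧ t.length ≤ n then 1 else 0 := by
  simp only [vec, lp.coeFn_sum, Finset.sum_apply, e_apply, Finset.sum_ite_eq, mem_pref]

lemma card_pref (n : ℕ) (s : T) : (pref n s).card ≤ n + 1 := by
  have h : pref n s ⊆ (Finset.range (n + 1)).image (fun k => s.take k) := by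
    intro t ht
    rw [mem_pref] at ht
    refine Finset.mem_image.2 ⟨t.length, Finset.mem_range.2 (by omega), ?_⟩
    exact (List.prefix_iff_eq_take.1 ht.1).symm
  exact (Finset.card_le_card h).trans (Finset.card_image_le.trans (by simp))

lemma norm_vec_le (n : ℕ) (s : T) : ‖vec n s‖ ≤ n + 1 := by
  refine (norm_sum_le _ _).trans ?_
  simp only [norm_e, Finset.sum_const, nsmul_eq_mul, mul_one]
  exact_mod_cast card_pref n s

/-- The cost of writing `c` with the mass `m`. -/
def cost (n : ℕ) (c : H) (m : T →₀ ℝ) : ℝ :=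
  (m.sum fun _ a => |a|) + ‖c - Finsupp.linearCombination ℝ (vec n) m‖

lemma cost_nonneg (n : ℕ) (c : H) (m : T →₀ ℝ) : 0 ≤ cost n c m :=
  add_nonneg (Finset.sum_nonneg fun _ _ => abs_nonneg _) (norm_nonneg _)

/-- The norm of the `n`-th summand. -/
def gauge2 (n : ℕ) (c : H) : ℝ := ⨅ m : T →₀ ℝ, cost n c m

lemma bdd_cost (n : ℕ) (c : H) : BddBelow (Set.range (cost n c)) :=
  ⟨0, by rintro _ ⟨m, rfl⟩; exact cost_nonneg n c m⟩

lemma gauge2_le_cost (n : ℕ) (c : H) (m : T →₀ ℝ) : gauge2 n c ≤ cost n c m :=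
  ciInf_le (bdd_cost n c) m

lemma gauge2_nonneg (n : ℕ) (c : H) : 0 ≤ gauge2 n c :=
  le_ciInf (cost_nonneg n c)

lemma gauge2_le_norm (n : ℕ) (c : H) : gauge2 n c ≤ ‖c‖ := by
  simpa [cost] using gauge2_le_cost n c 0

lemma l1_eq_sum {U : Finset T} (m : T →₀ ℝ) (hU : m.support ⊆ U) :
    (m.sum fun _ a => |a|) = ∑ s ∈ U, |m s| :=
  Finsupp.sum_of_support_subset m hU _ (by simp)

lemma comb_eq_sum (n : ℕ) {U : Finset T} (m : T →₀ ℝ) (hU : m.support ⊆ U) :
    Finsupp.linearCombination ℝ (vec n) m = ∑ s ∈ U, m s • vec n s := by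
  rw [Finsupp.linearCombination_apply]
  exact Finsupp.sum_of_support_subset m hU _ (by simp)

lemma gauge2_add (n : ℕ) (c d : H) : gauge2 n (c + d) ≤ gauge2 n c + gauge2 n d := by
  classical
  refine le_ciInf_add_ciInf fun m k => ?_
  refine (gauge2_le_cost n (c + d) (m + k)).trans ?_
  have hl : ((m + k).sum fun _ a => |a|) ≤ (m.sum fun _ a => |a|) + (k.sum fun _ a => |a|) := by
    rw [l1_eq_sum (U := m.support ∪ k.support) (m + k) Finsupp.support_add,
      l1_eq_sum (U := m.support ∪ k.support) m Finset.subset_union_left,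
      l1_eq_sum (U := m.support ∪ k.support) k Finset.subset_union_right,
      ← Finset.sum_add_distrib]
    exact Finset.sum_le_sum fun s _ => abs_add_le _ _
  have hn : ‖c + d - Finsupp.linearCombination ℝ (vec n) (m + k)‖
      ≤ ‖c - Finsupp.linearCombination ℝ (vec n) m‖
        + ‖d - Finsupp.linearCombination ℝ (vec n) k‖ := by
    rw [map_add, add_sub_add_comm]
    exact norm_add_le _ _
  unfold cost
  linarith

lemma gauge2_smul_le (n : ℕ) (a : ℝ) (c : H) : gauge2 n (a • c) ≤ |a| * gauge2 n c := by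
  rw [gauge2, gauge2, Real.mul_iInf_of_nonneg (abs_nonneg a)]
  refine le_ciInf fun m => ?_
  refine (ciInf_le (bdd_cost n (a • c)) (a • m)).trans ?_
  have hl : ((a • m).sum fun _ b => |b|) = |a| * (m.sum fun _ b => |b|) := by
    rw [Finsupp.sum_smul_index (by simp), Finsupp.mul_sum]
    simp [abs_mul]
  unfold cost
  rw [hl, map_smul, ← smul_sub, norm_smul, Real.norm_eq_abs, mul_add]

lemma gauge2_smul (n : ℕ) (a : ℝ) (c : H) : gauge2 n (a • c) = |a| * gauge2 n c := by
  refine le_antisymm (gauge2_smul_le n a c) ?_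
  rcases eq_or_ne a 0 with ha | ha
  · simpa [ha] using gauge2_nonneg n (0 : H)
  · have h := gauge2_smul_le n a⁻¹ (a • c)
    rw [smul_smul, inv_mul_cancel₀ ha, one_smul, abs_inv, le_inv_mul_iff₀ (abs_pos.2 ha)] at h
    exact h

lemma gauge2_zero (n : ℕ) : gauge2 n 0 = 0 := by
  simpa using gauge2_smul n 0 (0 : H)

lemma gauge2_neg (n : ℕ) (c : H) : gauge2 n (-c) = gauge2 n c := by
  simpa using gauge2_smul n (-1) c

lemma norm_le_gauge2 (n : ℕ) (c : H) : ‖c‖ ≤ ((n : ℝ) + 1) * gauge2 n c := by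
  rw [gauge2, Real.mul_iInf_of_nonneg (by positivity)]
  refine le_ciInf fun m => ?_
  have h1 : ‖Finsupp.linearCombination ℝ (vec n) m‖
      ≤ ((n : ℝ) + 1) * (m.sum fun _ a => |a|) := by
    rw [comb_eq_sum n m subset_rfl, l1_eq_sum m subset_rfl, Finset.mul_sum]
    refine (norm_sum_le _ _).trans (Finset.sum_le_sum fun s _ => ?_)
    rw [norm_smul, Real.norm_eq_abs, mul_comm]
    exact mul_le_mul_of_nonneg_right (norm_vec_le n s) (abs_nonneg _)
  have h2 := norm_le_norm_add_norm_sub' c (Finsupp.linearCombination ℝ (vec n) m)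
  have h3 : ‖c - Finsupp.linearCombination ℝ (vec n) m‖
      ≤ ((n : ℝ) + 1) * ‖c - Finsupp.linearCombination ℝ (vec n) m‖ :=
    le_mul_of_one_le_left (norm_nonneg _) (by simp)
  unfold cost
  linarith

lemma abs_apply_le_gauge2 (n : ℕ) (c : H) (t : T) : |c t| ≤ gauge2 n c := by
  refine le_ciInf fun m => ?_
  have h1 : |(Finsupp.linearCombination ℝ (vec n) m) t| ≤ (m.sum fun _ a => |a|) := by
    rw [comb_eq_sum n m subset_rfl, l1_eq_sum m subset_rfl, lp.coeFn_sum, Finset.sum_apply]
    refine (Finset.abs_sum_le_sum_abs _ _).trans (Finset.sum_le_sum fun s _ => ?_)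
    simp only [lp.coeFn_smul, Pi.smul_apply, smul_eq_mul, vec_apply]
    split <;> simp
  have h2 := lp.norm_apply_le_norm (by norm_num) (c - Finsupp.linearCombination ℝ (vec n) m) t
  rw [lp.coeFn_sub, Pi.sub_apply, Real.norm_eq_abs] at h2
  have h3 := abs_sub_abs_le_abs_sub (c t) ((Finsupp.linearCombination ℝ (vec n) m) t)
  unfold cost
  linarith

lemma gauge2_vec_le (n : ℕ) (s : T) : gauge2 n (vec n s) ≤ 1 := by
  refine (gauge2_le_cost n _ (Finsupp.single s 1)).trans ?_
  simp [cost]

lemma gauge2_le_of_sum (n : ℕ) (c : H) (U : Finset T) (f : T → ℝ) :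
    gauge2 n c ≤ (∑ s ∈ U, |f s|) + ‖c - ∑ s ∈ U, f s • vec n s‖ := by
  classical
  let m : T →₀ ℝ := Finsupp.onFinset U (fun s => if s ∈ U then f s else 0) (by
    intro s hs; by_contra hns; simp [hns] at hs)
  have hsup : m.support ⊆ U := Finsupp.support_onFinset_subset
  have hm : ∀ s ∈ U, m s = f s := fun s hs => by simp [m, hs]
  refine (gauge2_le_cost n c m).trans (le_of_eq ?_)
  rw [cost, l1_eq_sum m hsup, comb_eq_sum n m hsup,
    Finset.sum_congr rfl (fun s hs => by rw [hm s hs] : ∀ s ∈ U, |m s| = |f s|),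
    Finset.sum_congr rfl (fun s hs => by rw [hm s hs] : ∀ s ∈ U, m s • vec n s = f s • vec n s)]

end

end Vale.Agent.P069
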