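import Vale.Agent.P069.Basic

/-!
# P069: the uniform midpoint inequality

If `x` lives on a finite prefix-closed set of nodes and `w` off it, then
`gauge2 n w ^ 2 ≤ 156 * (gauge2 n (x+w) ^ 2 + gauge2 n (x-w) ^ 2 - 2 * gauge2 n x ^ 2)`.
-/

namespace Vale.Agent.P069

open Finset

noncomputable section

/-- Restriction to a finite set of nodes. -/
def proj (E : Finset T) (r : H) : H := ∑ t ∈ E, lp.single 2 t (r t)

lemma proj_apply (E : Finset T) (r : H) (t : T) :
    (proj E r) t = if t ∈ E then r t else 0 := by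
  simp only [proj, lp.coeFn_sum, lp.coeFn_single, Finset.sum_apply, Finset.sum_pi_single]

lemma proj_add (E : Finset T) (r r' : H) : proj E (r + r') = proj E r + proj E r' := by
  ext t
  simp only [proj_apply, lp.coeFn_add, Pi.add_apply]
  split <;> simp

lemma norm_sq_split (E : Finset T) (r : H) :
    ‖r - proj E r‖ ^ 2 = ‖r‖ ^ 2 - ‖proj E r‖ ^ 2 := by
  have hp : (0 : ℝ) < (2 : ENNReal).toReal := by norm_num
  have h1 := lp.norm_compl_sum_single hp r E
  have h2 := lp.norm_sum_single hp (fun t => r t) E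
  simp only [ENNReal.toReal_ofNat, Real.rpow_two] at h1 h2
  rw [proj, h1, h2]

lemma norm_proj_le (E : Finset T) (r : H) : ‖proj E r‖ ≤ ‖r‖ := by
  have h := norm_sq_split E r
  have : ‖proj E r‖ ^ 2 ≤ ‖r‖ ^ 2 := by nlinarith [sq_nonneg ‖r - proj E r‖]
  exact abs_le_of_sq_le_sq' this (norm_nonneg _) |>.2

/-- Linear combination of the vectors `vec n s`, `s ∈ U`. -/
def comb (n : ℕ) (U : Finset T) (f : T → ℝ) : H := ∑ s ∈ U, f s • vec n s

/-- Total of `f` over the nodes of `U` extending `t`. -/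
def sub (U : Finset T) (f : T → ℝ) (t : T) : ℝ := ∑ s ∈ U.filter (fun s => t <+: s), f s

lemma comb_apply (n : ℕ) (U : Finset T) (f : T → ℝ) (t : T) :
    (comb n U f) t = if t.length ≤ n then sub U f t else 0 := by
  simp only [comb, lp.coeFn_sum, Finset.sum_apply, lp.coeFn_smul, Pi.smul_apply, smul_eq_mul,
    vec_apply, sub, Finset.sum_filter]
  by_cases h : t.length ≤ n <;> simp [h]

/-- A finite prefix-closed set of nodes containing the root. -/
def Closed (E : Finset T) : Prop := [] ∈ E ∧ ∀ t ∈ E, ∀ u, u <+: t → u ∈ E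

/-- The deepest prefix of `s` lying in `E`. -/
def grp (E : Finset T) (s : T) : T :=
  s.take (Nat.findGreatest (fun k => s.take k ∈ E) s.length)

lemma grp_prefix (E : Finset T) (s : T) : grp E s <+: s := List.take_prefix _ _

lemma grp_mem {E : Finset T} (hE : Closed E) (s : T) : grp E s ∈ E :=
  Nat.findGreatest_spec (P := fun k => s.take k ∈ E) (Nat.zero_le _) (by simpa using hE.1)

lemma prefix_grp {E : Finset T} {s t : T} (ht : t ∈ E) (h : t <+: s) : t <+: grp E s := by
  refine List.prefix_of_prefix_length_le h (grp_prefix E s) ?_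
  have hk : t.length ≤ Nat.findGreatest (fun k => s.take k ∈ E) s.length :=
    Nat.le_findGreatest h.length_le (by rwa [← List.prefix_iff_eq_take.1 h])
  simp only [grp, List.length_take]
  exact le_min hk h.length_le

lemma prefix_grp_iff {E : Finset T} (hE : Closed E) {s t : T} :
    t <+: grp E s ↔ t <+: s ∧ t ∈ E :=
  ⟨fun h => ⟨h.trans (grp_prefix E s), hE.2 _ (grp_mem hE s) _ h⟩,
    fun h => prefix_grp h.2 h.1⟩

lemma grp_eq_of_prefix {E : Finset T} (hE : Closed E) {s t : T} (ht : t ∉ E) (h : t <+: s) :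
    grp E s = grp E t := by
  have h1 : grp E t <+: grp E s := prefix_grp (grp_mem hE t) ((grp_prefix E t).trans h)
  have h2 : grp E s <+: t := by
    rcases List.prefix_or_prefix_of_prefix h (grp_prefix E s) with h' | h'
    · exact absurd (hE.2 _ (grp_mem hE s) _ h') ht
    · exact h'
  have h3 : grp E s <+: grp E t := prefix_grp (grp_mem hE s) h2
  exact h3.eq_of_length_le h1.length_le

lemma comb_grp {E : Finset T} (hE : Closed E) (n : ℕ) (U : Finset T) (f : T → ℝ) :
    ∑ g ∈ E, (∑ s ∈ U with grp E s = g, f s) • vec n g = proj E (comb n U f) := by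
  have h : ∀ g ∈ E, (∑ s ∈ U with grp E s = g, f s) • vec n g
      = ∑ s ∈ U with grp E s = g, f s • vec n (grp E s) := by
    intro g _
    rw [Finset.sum_smul]
    exact Finset.sum_congr rfl fun s hs => by rw [(Finset.mem_filter.1 hs).2]
  rw [Finset.sum_congr rfl h, Finset.sum_fiberwise_of_maps_to fun s _ => grp_mem hE s]
  ext t
  simp only [lp.coeFn_sum, Finset.sum_apply, lp.coeFn_smul, Pi.smul_apply, smul_eq_mul,
    vec_apply, proj_apply, prefix_grp_iff hE, comb_apply, sub, Finset.sum_filter]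
  by_cases h1 : t ∈ E <;> by_cases h2 : t.length ≤ n <;> simp [h1, h2]

lemma sub_nonneg' {U : Finset T} {f : T → ℝ} (hf : ∀ s, 0 ≤ f s) (t : T) : 0 ≤ sub U f t :=
  Finset.sum_nonneg fun s _ => hf s

lemma sum_sub_le {U C : Finset T} {f : T → ℝ} (hf : ∀ s, 0 ≤ f s) {P : T → Prop}
    [DecidablePred P] (hC : ∀ c ∈ C, ∀ c' ∈ C, ∀ s, c <+: s → c' <+: s → c = c')
    (hP : ∀ c ∈ C, ∀ s, c <+: s → P s) :
    ∑ c ∈ C, sub U f c ≤ ∑ s ∈ U.filter P, f s := by
  have hd : (C : Set T).PairwiseDisjoint (fun c => U.filter (fun s => c <+: s)) := by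
    intro c hc c' hc' hne
    refine Finset.disjoint_left.2 fun s h1 h2 => hne ?_
    exact hC c hc c' hc' s (Finset.mem_filter.1 h1).2 (Finset.mem_filter.1 h2).2
  unfold sub
  rw [← Finset.sum_biUnion hd]
  refine Finset.sum_le_sum_of_subset_of_nonneg ?_ (fun s _ _ => hf s)
  intro s hs
  obtain ⟨c, hc, hs⟩ := Finset.mem_biUnion.1 hs
  obtain ⟨hsU, hcs⟩ := Finset.mem_filter.1 hs
  exact Finset.mem_filter.2 ⟨hsU, hP c hc s hcs⟩

lemma vec_sub_parent (n : ℕ) {t : T} (ht : t ≠ []) (hn : t.length ≤ n) :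
    vec n t - vec n t.dropLast = e t := by
  ext u
  simp only [lp.coeFn_sub, Pi.sub_apply, vec_apply, e_apply]
  by_cases h : u = t
  · subst h
    have : ¬ (u <+: u.dropLast) := by
      intro h'
      have h1 := h'.length_le
      have h2 : 0 < u.length := List.length_pos_of_ne_nil ht
      simp only [List.length_dropLast] at h1
      omega
    simp [this, hn]
  · have hiff : u <+: t ↔ u <+: t.dropLast := by
      refine ⟨fun h' => List.prefix_of_prefix_length_le h' (List.dropLast_prefix t) ?_,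
        fun h' => h'.trans (List.dropLast_prefix t)⟩
      have : u.length < t.length := by
        rcases lt_or_ge u.length t.length with h'' | h''
        · exact h''
        · exact absurd (h'.eq_of_length_le h'') h
      simp only [List.length_dropLast]
      omega
    simp [h, hiff]

/-- The combinatorial core. -/
lemma key_decomp (n : ℕ) {E U : Finset T} (hE : Closed E) (hU : Closed U) (hEU : E ⊆ U)
    (x w : H) (hx : ∀ t ∉ E, x t = 0) (hw : ∀ t ∈ E, w t = 0) (A B : T → ℝ) :
    gauge2 n w ^ 2 ≤ 78 *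
      ((∑ s ∈ U, |A s|) + ‖x + w - comb n U A‖ + ((∑ s ∈ U, |B s|) + ‖x - w - comb n U B‖)) *
      ((∑ s ∈ U, |A s|) + ‖x + w - comb n U A‖ + ((∑ s ∈ U, |B s|) + ‖x - w - comb n U B‖)
        - 2 * gauge2 n x) := by
  classical
  set rA := x + w - comb n U A with hrA
  set rB := x - w - comb n U B with hrB
  -- grouped masses and their signs
  set S : T → ℝ := fun g => ∑ s ∈ U with grp E s = g, (A s + B s) with hS
  set σ : T → ℝ := fun g => if 0 ≤ S g then 1 else -1 with hσ
  have hσabs : ∀ g, |σ g| = 1 := fun g => by simp only [hσ]; split <;> simp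
  have hσmul : ∀ g a, σ g * a ≤ |a| := fun g a => by
    refine (le_abs_self _).trans (le_of_eq ?_)
    rw [abs_mul, hσabs, one_mul]
  have hσsq : ∀ g, σ g * σ g = 1 := fun g => by simp only [hσ]; split <;> simp
  have hσS : ∀ g, σ g * S g = |S g| := fun g => by
    simp only [hσ]; split
    · rw [one_mul, abs_of_nonneg ‹_›]
    · rw [abs_of_neg (not_le.1 ‹_›)]; ring
  set d : T → ℝ := fun s => |A s| - σ (grp E s) * A s with hd
  set D : T → ℝ := fun s => d s + (|B s| - σ (grp E s) * B s) with hD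
  have hd0 : ∀ s, 0 ≤ d s := fun s => sub_nonneg.2 (hσmul _ _)
  have hD0 : ∀ s, 0 ≤ D s := fun s => add_nonneg (hd0 s) (sub_nonneg.2 (hσmul _ _))
  have hdD : ∀ s, d s ≤ D s := fun s => le_add_of_nonneg_right (sub_nonneg.2 (hσmul _ _))
  set G := ∑ s ∈ U, D s with hG
  have hG0 : 0 ≤ G := Finset.sum_nonneg fun s _ => hD0 s
  have hGeq : G + ∑ g ∈ E, |S g| = (∑ s ∈ U, |A s|) + ∑ s ∈ U, |B s| := by
    have h1 : ∑ g ∈ E, |S g| = ∑ s ∈ U, σ (grp E s) * (A s + B s) := by
      rw [← Finset.sum_fiberwise_of_maps_to (fun s (_ : s ∈ U) => grp_mem hE s)]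
      refine Finset.sum_congr rfl fun g _ => ?_
      rw [← hσS, hS, Finset.mul_sum]
      exact Finset.sum_congr rfl fun s hs => by rw [(Finset.mem_filter.1 hs).2]
    rw [h1, hG, ← Finset.sum_add_distrib, ← Finset.sum_add_distrib]
    exact Finset.sum_congr rfl fun s _ => by simp only [hD, hd]; ring
  -- step 1 : an upper bound for the norm of x
  have h2x : 2 * gauge2 n x ≤ (∑ g ∈ E, |S g|) + ‖proj E rA‖ + ‖proj E rB‖ := by
    have h := gauge2_le_of_sum n ((2 : ℝ) • x) E S
    rw [gauge2_smul, abs_of_nonneg (by norm_num : (0:ℝ) ≤ 2)] at h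
    have hcomb : ∑ g ∈ E, S g • vec n g = proj E (comb n U A) + proj E (comb n U B) := by
      rw [← proj_add, hS, comb_grp hE]
      congr 1
      simp only [comb, add_smul, Finset.sum_add_distrib]
    have hid : (2 : ℝ) • x - ∑ g ∈ E, S g • vec n g = proj E rA + proj E rB := by
      rw [hcomb]
      ext t
      simp only [lp.coeFn_sub, lp.coeFn_add, lp.coeFn_smul, Pi.sub_apply, Pi.add_apply,
        Pi.smul_apply, smul_eq_mul, proj_apply, hrA, hrB]
      by_cases ht : t ∈ E
      · simp only [ht, if_true]; ring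
      · simp [ht, hx t ht]
    rw [hid] at h
    linarith [norm_add_le (proj E rA) (proj E rB)]
  -- step 2 : a cheap decomposition of w
  set Q := U.filter (fun t => t ∉ E ∧ t.length ≤ n) with hQ
  have hQm : ∀ t, t ∈ Q ↔ t ∈ U ∧ t ∉ E ∧ t.length ≤ n := fun t => by simp [hQ]
  have hQne : ∀ t ∈ Q, t ≠ [] := fun t ht h => ((hQm t).1 ht).2.1 (h ▸ hE.1)
  set p : T → ℝ := sub U (fun s => |A s|) with hp
  set μ : T → ℝ := sub U D with hμ
  set h : T → ℝ := fun t => min (p t) (μ t) with hh
  have hh0 : ∀ t, 0 ≤ h t := fun t =>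
    le_min (sub_nonneg' (fun s => abs_nonneg _) t) (sub_nonneg' hD0 t)
  set τ : T → ℝ := fun t => σ (grp E t) with hτ
  set f : T → ℝ := fun s => τ s * d s with hf
  set F : T → ℝ := fun g => ∑ s ∈ U with grp E s = g, f s with hF
  set ch : T → ℝ := fun u => ∑ t ∈ Q with t.dropLast = u, τ t * h t with hch
  set m1 : T → ℝ := fun u => (if u ∈ Q then τ u * h u else 0) - ch u with hm1
  set M : T → ℝ := fun u => m1 u - f u + (if u ∈ E then F u else 0) with hM
  have hparU : ∀ t ∈ Q, t.dropLast ∈ U := fun t ht =>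
    hU.2 t ((hQm t).1 ht).1 _ (List.dropLast_prefix t)
  have hparQ : ∀ t ∈ Q, t.dropLast ∉ E → t.dropLast ∈ Q := fun t ht hne => by
    refine (hQm _).2 ⟨hparU t ht, hne, ?_⟩
    have := ((hQm t).1 ht).2.2
    simp only [List.length_dropLast]
    omega
  have hanti : ∀ u : T, ∀ c ∈ Q.filter (fun t => t.dropLast = u),
      ∀ c' ∈ Q.filter (fun t => t.dropLast = u), ∀ s, c <+: s → c' <+: s → c = c' := by
    intro u c hc c' hc' s h1 h2
    obtain ⟨hcQ, hcu⟩ := Finset.mem_filter.1 hc
    obtain ⟨hcQ', hcu'⟩ := Finset.mem_filter.1 hc'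
    have l1 := List.length_pos_of_ne_nil (hQne c hcQ)
    have l2 := List.length_pos_of_ne_nil (hQne c' hcQ')
    have := congrArg List.length (hcu.trans hcu'.symm)
    simp only [List.length_dropLast] at this
    have e1 := List.prefix_iff_eq_take.1 h1
    have e2 := List.prefix_iff_eq_take.1 h2
    rw [e1, e2, show c.length = c'.length by omega]
  have hexc : ∀ u ∈ Q, ∑ t ∈ Q with t.dropLast = u, h t ≤ h u := by
    intro u _
    have key : ∀ g : T → ℝ, (∀ s, 0 ≤ g s) →
        ∑ t ∈ Q with t.dropLast = u, sub U g t ≤ sub U g u := fun g hg =>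
      sum_sub_le hg (hanti u) fun c hc s hcs =>
        (((Finset.mem_filter.1 hc).2 ▸ List.dropLast_prefix c : u <+: c)).trans hcs
    refine le_min ?_ ?_
    · exact (Finset.sum_le_sum fun t _ => min_le_left _ _).trans (key _ fun s => abs_nonneg _)
    · exact (Finset.sum_le_sum fun t _ => min_le_right _ _).trans (key _ hD0)
  have htops : ∑ t ∈ Q with t.dropLast ∈ E, h t ≤ G := by
    refine (Finset.sum_le_sum fun t _ => min_le_right _ _).trans ?_
    refine (sum_sub_le (P := fun _ => True) hD0 ?_ fun _ _ _ _ => trivial).trans (by simp [hG])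
    intro c hc c' hc' s h1 h2
    obtain ⟨hcQ, hcE⟩ := Finset.mem_filter.1 hc
    obtain ⟨hcQ', hcE'⟩ := Finset.mem_filter.1 hc'
    by_contra hne
    rcases List.prefix_or_prefix_of_prefix h1 h2 with h' | h'
    · have hlt : c.length < c'.length := by
        rcases lt_or_ge c.length c'.length with h'' | h''
        · exact h''
        · exact absurd (h'.eq_of_length_le h'') hne
      refine ((hQm c).1 hcQ).2.1 (hE.2 _ hcE' c ?_)
      refine List.prefix_of_prefix_length_le h' (List.dropLast_prefix c') ?_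
      simp only [List.length_dropLast]; omega
    · have hlt : c'.length < c.length := by
        rcases lt_or_ge c'.length c.length with h'' | h''
        · exact h''
        · exact absurd (h'.eq_of_length_le h'') (Ne.symm hne)
      refine ((hQm c').1 hcQ').2.1 (hE.2 _ hcE c' ?_)
      refine List.prefix_of_prefix_length_le h' (List.dropLast_prefix c) ?_
      simp only [List.length_dropLast]; omega
  have hτabs : ∀ t, |τ t| = 1 := fun t => hσabs _
  have habs_th : ∀ t, |τ t * h t| = h t := fun t => by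
    rw [abs_mul, hτabs, one_mul, abs_of_nonneg (hh0 t)]
  have hmass1 : ∑ u ∈ U, |m1 u| ≤ 2 * G := by
    have hb : ∀ u ∈ U, |m1 u| ≤ (if u ∈ Q then h u else 0)
        - (if u ∈ Q then ∑ t ∈ Q with t.dropLast = u, h t else 0)
        + (if u ∈ Q then 0 else ∑ t ∈ Q with t.dropLast = u, h t) := by
      intro u _
      simp only [hm1, hch]
      by_cases hu : u ∈ Q
      · simp only [hu, if_true, add_zero]
        have : ∀ t ∈ Q.filter (fun t => t.dropLast = u), τ t * h t = τ u * h t := by
          intro t ht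
          obtain ⟨_, htu⟩ := Finset.mem_filter.1 ht
          simp only [hτ]
          rw [← htu, grp_eq_of_prefix hE (htu ▸ ((hQm u).1 hu).2.1) (List.dropLast_prefix t)]
        rw [Finset.sum_congr rfl this, ← Finset.mul_sum, ← mul_sub, abs_mul, hτabs, one_mul,
          abs_of_nonneg (sub_nonneg.2 (hexc u hu))]
      · simp only [hu, if_false, zero_sub, abs_neg, neg_zero, zero_add]
        refine (Finset.abs_sum_le_sum_abs _ _).trans (le_of_eq ?_)
        exact Finset.sum_congr rfl fun t _ => habs_th t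
    refine (Finset.sum_le_sum hb).trans ?_
    have hall : ∑ u ∈ U, ∑ t ∈ Q with t.dropLast = u, h t = ∑ t ∈ Q, h t :=
      Finset.sum_fiberwise_of_maps_to hparU _
    have hQU : Q ⊆ U := Finset.filter_subset _ _
    have hQsum : ∀ g : T → ℝ, ∑ u ∈ U, (if u ∈ Q then g u else 0) = ∑ u ∈ Q, g u := fun g => by
      rw [Finset.sum_ite_mem, Finset.inter_eq_right.2 hQU]
    have hsplit : ∀ u ∈ U, (if u ∈ Q then 0 else ∑ t ∈ Q with t.dropLast = u, h t)
        = (∑ t ∈ Q with t.dropLast = u, h t)
          - (if u ∈ Q then ∑ t ∈ Q with t.dropLast = u, h t else 0) := fun u _ => by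
      by_cases hu : u ∈ Q <;> simp [hu]
    have hQQ : ∑ u ∈ Q, ∑ t ∈ Q with t.dropLast = u, h t = ∑ t ∈ Q with t.dropLast ∈ Q, h t := by
      rw [← Finset.sum_fiberwise_of_maps_to (s := Q.filter fun t => t.dropLast ∈ Q) (t := Q)
        (g := List.dropLast) (fun t ht => (Finset.mem_filter.1 ht).2)]
      refine Finset.sum_congr rfl fun u hu => Finset.sum_congr ?_ fun _ _ => rfl
      ext t
      simp only [Finset.mem_filter]
      exact ⟨fun ⟨a, b⟩ => ⟨⟨a, b ▸ hu⟩, b⟩, fun ⟨⟨a, _⟩, b⟩ => ⟨a, b⟩⟩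
    have htop_eq : ∑ t ∈ Q with t.dropLast ∉ Q, h t = ∑ t ∈ Q with t.dropLast ∈ E, h t := by
      refine Finset.sum_congr (Finset.filter_congr fun t ht => ?_) fun _ _ => rfl
      constructor
      · intro hnq
        by_contra hne
        exact hnq (hparQ t ht hne)
      · intro hE' hq
        exact ((hQm _).1 hq).2.1 hE'
    have hsum2 := Finset.sum_filter_add_sum_filter_not Q (fun t => t.dropLast ∈ Q) h
    rw [Finset.sum_add_distrib, Finset.sum_sub_distrib, Finset.sum_congr rfl hsplit,
      Finset.sum_sub_distrib, hQsum, hQsum, hall, hQQ]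
    rw [htop_eq] at hsum2
    linarith
  have hfsum : ∑ s ∈ U, |f s| ≤ G := Finset.sum_le_sum fun s _ => by
    simp only [hf]
    rw [abs_mul, hτabs, one_mul, abs_of_nonneg (hd0 s)]
    exact hdD s
  have hmass : ∑ u ∈ U, |M u| ≤ 4 * G := by
    have hb : ∀ u ∈ U, |M u| ≤ |m1 u| + |f u| + (if u ∈ E then |F u| else 0) := by
      intro u _
      simp only [hM]
      refine (abs_add_le _ _).trans (add_le_add (abs_sub _ _) (le_of_eq ?_))
      split <;> simp
    refine (Finset.sum_le_sum hb).trans ?_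
    rw [Finset.sum_add_distrib, Finset.sum_add_distrib, Finset.sum_ite_mem,
      Finset.inter_eq_right.2 hEU]
    have hFs : ∑ g ∈ E, |F g| ≤ ∑ s ∈ U, |f s| := by
      rw [← Finset.sum_fiberwise_of_maps_to (fun s (_ : s ∈ U) => grp_mem hE s)]
      exact Finset.sum_le_sum fun g _ => Finset.abs_sum_le_sum_abs _ _
    linarith
  -- the pointwise identity
  have hcm1 : comb n U m1 = ∑ t ∈ Q, (τ t * h t) • e t := by
    have h1 : ∑ u ∈ U, (if u ∈ Q then τ u * h u else 0) • vec n u
        = ∑ t ∈ Q, (τ t * h t) • vec n t := by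
      simp only [ite_smul, zero_smul]
      rw [Finset.sum_ite_mem, Finset.inter_eq_right.2 (Finset.filter_subset _ _)]
    have h2 : ∑ u ∈ U, ch u • vec n u = ∑ t ∈ Q, (τ t * h t) • vec n t.dropLast := by
      rw [← Finset.sum_fiberwise_of_maps_to hparU]
      refine Finset.sum_congr rfl fun u _ => ?_
      rw [hch, Finset.sum_smul]
      exact Finset.sum_congr rfl fun t ht => by rw [(Finset.mem_filter.1 ht).2]
    simp only [comb, hm1, sub_smul, Finset.sum_sub_distrib]
    rw [h1, h2, ← Finset.sum_sub_distrib]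
    refine Finset.sum_congr rfl fun t ht => ?_
    rw [← smul_sub, vec_sub_parent n (hQne t ht) ((hQm t).1 ht).2.2]
  have hcM : comb n U M = (∑ t ∈ Q, (τ t * h t) • e t) - comb n U f + proj E (comb n U f) := by
    rw [← hcm1, ← comb_grp hE]
    simp only [comb, hM, add_smul, sub_smul, Finset.sum_add_distrib, Finset.sum_sub_distrib,
      ite_smul, zero_smul, hF]
    rw [Finset.sum_ite_mem, Finset.inter_eq_right.2 hEU]
  have hpt : ∀ t, |(w - comb n U M) t| ≤ 2 * |(rA - proj E rA) t| + |(rB - proj E rB) t| := by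
    intro t
    have hsumQ : (∑ u ∈ Q, (τ u * h u) • e u) t = if t ∈ Q then τ t * h t else 0 := by
      simp only [lp.coeFn_sum, Finset.sum_apply, lp.coeFn_smul, Pi.smul_apply, smul_eq_mul,
        e_apply, mul_ite, mul_one, mul_zero, Finset.sum_ite_eq]
    rw [hcM]
    simp only [lp.coeFn_sub, lp.coeFn_add, Pi.sub_apply, Pi.add_apply, hsumQ, proj_apply]
    by_cases htE : t ∈ E
    · have htQ : t ∉ Q := fun hq => ((hQm t).1 hq).2.1 htE
      simp [htE, htQ, hw t htE]
    simp only [htE, if_false, add_zero, sub_zero]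
    have hA : rA t = w t - (comb n U A) t := by simp [hrA, hx t htE]
    have hB : rB t = -w t - (comb n U B) t := by simp [hrB, hx t htE]
    by_cases htQ : t ∈ Q
    · have hn := ((hQm t).1 htQ).2.2
      simp only [comb_apply, hn, if_true] at hA hB ⊢
      simp only [htQ, if_true]
      have hg : ∀ s ∈ U.filter (fun s => t <+: s), σ (grp E s) = τ t := fun s hs => by
        simp only [hτ]
        rw [grp_eq_of_prefix hE htE (Finset.mem_filter.1 hs).2]
      have hsubA : sub U A t = τ t * p t - sub U f t := by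
        simp only [hp, sub, Finset.mul_sum, ← Finset.sum_sub_distrib]
        refine Finset.sum_congr rfl fun s hs => ?_
        have := hσsq (grp E s)
        simp only [hf, hd]
        rw [show τ s = σ (grp E s) from rfl, ← hg s hs]
        linear_combination (-A s) * this
      have hμt : μ t = p t + sub U (fun s => |B s|) t - τ t * (sub U A t + sub U B t) := by
        simp only [hμ, hp, sub, Finset.mul_sum, ← Finset.sum_add_distrib, ← Finset.sum_sub_distrib]
        refine Finset.sum_congr rfl fun s hs => ?_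
        simp only [hD, hd]
        rw [← hg s hs]; ring
      have hbound : p t ≤ μ t + |rA t| + |rB t| := by
        have hq : 0 ≤ sub U (fun s => |B s|) t := sub_nonneg' (fun s => abs_nonneg _) t
        have : |τ t * (sub U A t + sub U B t)| ≤ |rA t| + |rB t| := by
          rw [abs_mul, hτabs, one_mul, show sub U A t + sub U B t = -(rA t + rB t) by linarith,
            abs_neg]
          exact abs_add_le _ _
        linarith [le_abs_self (τ t * (sub U A t + sub U B t))]
      have hph : |p t - h t| ≤ |rA t| + |rB t| := by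
        rw [abs_of_nonneg (sub_nonneg.2 (min_le_left _ _))]
        simp only [hh]
        rcases min_choice (p t) (μ t) with h' | h' <;> rw [h'] <;>
          linarith [abs_nonneg (rA t), abs_nonneg (rB t)]
      have heq : w t - (τ t * h t - sub U f t) = τ t * (p t - h t) + rA t := by
        rw [hA, hsubA]; ring
      rw [heq]
      refine (abs_add_le _ _).trans ?_
      rw [abs_mul, hτabs, one_mul]
      linarith
    · simp only [htQ, if_false, zero_sub, sub_neg_eq_add]
      have hzero : ∀ g : T → ℝ, (comb n U g) t = 0 := by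
        intro g
        rw [comb_apply]
        split
        · rename_i hn
          refine Finset.sum_eq_zero fun s hs => ?_
          obtain ⟨hsU, hts⟩ := Finset.mem_filter.1 hs
          exact absurd ((hQm t).2 ⟨hU.2 s hsU t hts, htE, hn⟩) htQ
        · rfl
      rw [hzero, sub_zero] at hA
      rw [hzero, add_zero, ← hA]
      linarith [abs_nonneg (rA t), abs_nonneg (rB t)]
  have hR : ‖w - comb n U M‖ ≤ 2 * ‖rA - proj E rA‖ + ‖rB - proj E rB‖ := by
    refine (lp.norm_mono (y := (2 : ℝ) • lp.toNorm (rA - proj E rA) + lp.toNorm (rB - proj E rB))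
      (by norm_num) ?_).trans ?_
    · intro t
      refine le_trans ?_ (le_abs_self _)
      rw [Real.norm_eq_abs]
      exact hpt t
    · refine (norm_add_le _ _).trans ?_
      rw [norm_smul, lp.norm_toNorm, lp.norm_toNorm]
      simp
  have hNw : gauge2 n w ≤ 4 * G + 2 * ‖rA - proj E rA‖ + ‖rB - proj E rB‖ := by
    have := gauge2_le_of_sum n w U M
    change gauge2 n w ≤ (∑ s ∈ U, |M s|) + ‖w - comb n U M‖ at this
    linarith
  -- arithmetic
  have hsA := norm_sq_split E rA
  have hsB := norm_sq_split E rB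
  have hPA := norm_proj_le E rA
  have hPB := norm_proj_le E rB
  have hlA : 0 ≤ ∑ s ∈ U, |A s| := Finset.sum_nonneg fun s _ => abs_nonneg _
  have hlB : 0 ≤ ∑ s ∈ U, |B s| := Finset.sum_nonneg fun s _ => abs_nonneg _
  have hSS : 0 ≤ ∑ g ∈ E, |S g| := Finset.sum_nonneg fun s _ => abs_nonneg _
  set tot := (∑ s ∈ U, |A s|) + ‖rA‖ + ((∑ s ∈ U, |B s|) + ‖rB‖) with htot
  set G' := tot - 2 * gauge2 n x with hG'
  have hG' : G + (‖rA‖ - ‖proj E rA‖) + (‖rB‖ - ‖proj E rB‖) ≤ G' := by linarith
  have hGS : G ≤ tot := by linarith [norm_nonneg rA, norm_nonneg rB]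
  have hS0 : 0 ≤ tot := le_trans hG0 hGS
  have b1 : G * G ≤ tot * G' := mul_le_mul hGS (by linarith) hG0 hS0
  have hb : ∀ r : H, ‖proj E r‖ ≤ ‖r‖ → ‖r‖ ≤ tot → ‖r‖ - ‖proj E r‖ ≤ G' →
      ‖r - proj E r‖ ^ 2 ≤ 2 * (tot * G') := by
    intro r h1 h2 h3
    rw [norm_sq_split E r,
      show ‖r‖ ^ 2 - ‖proj E r‖ ^ 2 = (‖r‖ + ‖proj E r‖) * (‖r‖ - ‖proj E r‖) by ring,
      show 2 * (tot * G') = (2 * tot) * G' by ring]
    exact mul_le_mul (by linarith) h3 (by linarith) (by linarith)
  have b2 := hb rA hPA (by linarith [norm_nonneg rB]) (by linarith)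
  have b3 := hb rB hPB (by linarith [norm_nonneg rA]) (by linarith)
  have hsq : gauge2 n w ^ 2 ≤ (4 * G + 2 * ‖rA - proj E rA‖ + ‖rB - proj E rB‖) ^ 2 :=
    pow_le_pow_left₀ (gauge2_nonneg n w) hNw 2
  nlinarith [sq_nonneg (4 * G - 2 * ‖rA - proj E rA‖), sq_nonneg (4 * G - ‖rB - proj E rB‖),
    sq_nonneg (2 * ‖rA - proj E rA‖ - ‖rB - proj E rB‖)]

/-- Prefix closure. -/
lemma exists_closed (V : Finset T) : ∃ U : Finset T, Closed U ∧ V ⊆ U := by
  refine ⟨insert [] (V.biUnion fun s => s.inits.toFinset), ⟨Finset.mem_insert_self _ _, ?_⟩, ?_⟩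
  · intro t ht u hu
    rcases Finset.mem_insert.1 ht with rfl | ht
    · rw [List.prefix_nil.1 hu]; exact Finset.mem_insert_self _ _
    · obtain ⟨s, hs, hts⟩ := Finset.mem_biUnion.1 ht
      rw [List.mem_toFinset, List.mem_inits] at hts
      refine Finset.mem_insert_of_mem (Finset.mem_biUnion.2 ⟨s, hs, ?_⟩)
      rw [List.mem_toFinset, List.mem_inits]
      exact hu.trans hts
  · intro t ht
    refine Finset.mem_insert_of_mem (Finset.mem_biUnion.2 ⟨t, ht, ?_⟩)
    simp [List.mem_inits]

/-- The uniform midpoint inequality for the norms `gauge2 n`. -/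
theorem midpoint (n : ℕ) {E : Finset T} (hE : Closed E) (x w : H)
    (hx : ∀ t ∉ E, x t = 0) (hw : ∀ t ∈ E, w t = 0) :
    gauge2 n w ^ 2 ≤ 156 *
      (gauge2 n (x + w) ^ 2 + gauge2 n (x - w) ^ 2 - 2 * gauge2 n x ^ 2) := by
  classical
  set a := gauge2 n (x + w) with ha
  set b := gauge2 n (x - w) with hb
  set c := gauge2 n x with hc
  have hc2 : 2 * c ≤ a + b := by
    have := gauge2_add n (x + w) (x - w)
    rw [show x + w + (x - w) = (2 : ℝ) • x by rw [two_smul]; abel, gauge2_smul,
      abs_of_nonneg (by norm_num : (0:ℝ) ≤ 2)] at this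
    linarith
  have hε : ∀ ε > 0, gauge2 n w ^ 2 ≤ 78 * (a + b + ε) * (a + b + ε - 2 * c) := by
    intro ε hε
    obtain ⟨m, hm⟩ : ∃ m, cost n (x + w) m < a + ε / 2 :=
      exists_lt_of_ciInf_lt (f := cost n (x + w)) (show gauge2 n (x + w) < a + ε / 2 by linarith)
    obtain ⟨k, hk⟩ : ∃ k, cost n (x - w) k < b + ε / 2 :=
      exists_lt_of_ciInf_lt (f := cost n (x - w)) (show gauge2 n (x - w) < b + ε / 2 by linarith)
    obtain ⟨U, hU, hsub⟩ := exists_closed (E ∪ m.support ∪ k.support)
    have hEU : E ⊆ U := fun t ht => hsub (by simp [Finset.mem_union, ht])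
    have hmU : m.support ⊆ U := fun t ht => hsub (Finset.mem_union_left _ (Finset.mem_union_right _ ht))
    have hkU : k.support ⊆ U := fun t ht => hsub (Finset.mem_union_right _ ht)
    have h := key_decomp n hE hU hEU x w hx hw (fun s => m s) (fun s => k s)
    simp only [cost, l1_eq_sum m hmU, l1_eq_sum k hkU, comb_eq_sum n m hmU,
      comb_eq_sum n k hkU] at hm hk
    simp only [comb] at h
    refine h.trans ?_
    have hnn : 0 ≤ gauge2 n x := gauge2_nonneg n x
    have h1 := gauge2_le_of_sum n (x + w) U (fun s => m s)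
    have h2 := gauge2_le_of_sum n (x - w) U (fun s => k s)
    apply mul_le_mul
    · linarith
    · linarith
    · linarith
    · linarith
  have hlim : gauge2 n w ^ 2 ≤ 78 * (a + b) * (a + b - 2 * c) := by
    have ht : Filter.Tendsto (fun ε : ℝ => 78 * (a + b + ε) * (a + b + ε - 2 * c))
        (nhdsWithin 0 (Set.Ioi 0)) (nhds (78 * (a + b) * (a + b - 2 * c))) := by
      have hcont : Continuous (fun ε : ℝ => 78 * (a + b + ε) * (a + b + ε - 2 * c)) := by fun_prop
      simpa using (hcont.tendsto 0).mono_left nhdsWithin_le_nhds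
    exact ge_of_tendsto ht (eventually_nhdsWithin_of_forall fun ε hε' => hε ε hε')
  have hcnn : 0 ≤ c := gauge2_nonneg n x
  nlinarith [sq_nonneg (a - b), mul_nonneg hcnn (sub_nonneg.2 hc2)]

end

end Vale.Agent.P069
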