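import Vale.Agent.P069.Space

/-!
# P069: the space is asymptotically midpoint uniformly convex and has no AUC renorming
-/

namespace Vale.Agent.P069

open Finset Filter Topology

noncomputable section

lemma gauge2_le_norm' (n : ℕ) (c : H) : ‖toXnL n c‖ ≤ ‖c‖ := gauge2_le_norm n c

lemma gauge2_symm (n : ℕ) (a : Xn n) : gauge2 n ((toXnL n).symm a) = ‖a‖ := rfl

/-- The scalar coordinate functional. -/
def nodeCoord (n : ℕ) (t : T) : X →L[ℝ] ℝ :=
  (LinearMap.mkContinuous
    ({ toFun := fun c => ((toXnL n).symm c) t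
       map_add' := fun a b => by simp
       map_smul' := fun a b => by simp } : Xn n →ₗ[ℝ] ℝ) 1
    fun c => by
      rw [one_mul, Real.norm_eq_abs]
      exact (abs_apply_le_gauge2 n _ t).trans_eq (gauge2_symm n c)).comp (coord n)

lemma nodeCoord_apply (n : ℕ) (t : T) (x : X) :
    nodeCoord n t x = ((toXnL n).symm (x n)) t := rfl

lemma not_finiteDimensional_X : ¬ FiniteDimensional ℝ X := by
  intro hfd
  have hinj : Function.Injective ((emb 0).comp (toXnL 0).toContinuousLinearMap) := by
    intro a b hab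
    apply (toXnL 0).injective
    have := congrArg (fun z : X => z 0) hab
    simpa [emb_apply] using this
  have : FiniteDimensional ℝ H :=
    FiniteDimensional.of_injective ((emb 0).comp (toXnL 0).toContinuousLinearMap).toLinearMap hinj
  have hli : LinearIndependent ℝ e := by
    rw [linearIndependent_iff']
    intro s g hg t ht
    have := congrArg (lp.evalCLM ℝ (fun _ : T => ℝ) 2 t) hg
    simp only [map_sum, map_smul, map_zero] at this
    have he : ∀ i, lp.evalCLM ℝ (fun _ : T => ℝ) 2 t (e i) = if t = i then 1 else 0 :=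
      fun i => e_apply i t
    simpa [he, ht] using this
  exact not_finite_iff_infinite.2 inferInstance hli.finite

/-- The midpoint inequality in the sum, for a vector carried by finitely many coordinates. -/
lemma midpoint_X (S : Finset ℕ) {E : Finset T} (hE : Closed E) (z w : X)
    (hz : ∀ n ∈ S, ∀ t ∉ E, ((toXnL n).symm (z n)) t = 0) (hz0 : ∀ n ∉ S, z n = 0)
    (hw : ∀ n ∈ S, ∀ t ∈ E, ((toXnL n).symm (w n)) t = 0) :
    2 * ‖z‖ ^ 2 + ‖w‖ ^ 2 / 156 ≤ ‖z + w‖ ^ 2 + ‖z - w‖ ^ 2 := by
  refine hasSum_le (fun n => ?_) (((hasSum_sq z).mul_left 2).add ((hasSum_sq w).div_const 156))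
    ((hasSum_sq (z + w)).add (hasSum_sq (z - w)))
  simp only [lp.coeFn_add, lp.coeFn_sub, Pi.add_apply, Pi.sub_apply]
  by_cases hn : n ∈ S
  · have h := midpoint n hE _ _ (hz n hn) (hw n hn)
    rw [← map_add, ← map_sub, gauge2_symm, gauge2_symm, gauge2_symm, gauge2_symm] at h
    linarith
  · simp only [hz0 n hn, zero_add, zero_sub, norm_neg, norm_zero]
    nlinarith [sq_nonneg ‖w n‖]

lemma exists_closed_approx (S : Finset ℕ) (x : X) {η : ℝ} (hη : 0 < η) :
    ∃ E : Finset T, Closed E ∧
      ∀ n ∈ S, ‖(toXnL n).symm (x n) - proj E ((toXnL n).symm (x n))‖ < η := by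
  have h : ∀ᶠ E in atTop, ∀ n ∈ S,
      ‖(toXnL n).symm (x n) - proj E ((toXnL n).symm (x n))‖ < η := by
    rw [Filter.eventually_all_finset]
    intro n _
    have := (lp.hasSum_single (by norm_num) ((toXnL n).symm (x n)) : HasSum _ _)
    refine (Metric.tendsto_nhds.1 this η hη).mono fun E hE => ?_
    rwa [dist_comm, dist_eq_norm] at hE
  obtain ⟨E0, hE0⟩ := eventually_atTop.1 h
  obtain ⟨E, hE, hsub⟩ := exists_closed E0
  exact ⟨E, hE, hE0 E hsub⟩

/-- The norm of `X` is asymptotically midpoint uniformly convex. -/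
theorem amuc_X : ∀ t : ℝ, 0 < t → ∃ δ > 0, ∀ x : X, ‖x‖ = 1 → ∃ F : Submodule ℝ X,
    IsClosed (F : Set X) ∧ FiniteDimensional ℝ (X ⧸ F) ∧
      ∀ y ∈ F, ‖y‖ = 1 → 1 + δ ≤ max ‖x + t • y‖ ‖x - t • y‖ := by
  intro t ht
  set r := Real.sqrt (1 + t ^ 2 / 312) with hr
  have hr1 : 1 < r := by
    rw [hr]; exact Real.lt_sqrt_of_sq_lt (by nlinarith)
  have hr2 : r ^ 2 = 1 + t ^ 2 / 312 := Real.sq_sqrt (by positivity)
  refine ⟨(r - 1) / 2, by linarith, fun x hx => ?_⟩
  set η := min ((r - 1) / 4) (1 / 2) with hη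
  have hη0 : 0 < η := lt_min (by linarith) (by norm_num)
  have hη1 : η ≤ (r - 1) / 4 := min_le_left _ _
  have hη2 : η ≤ 1 / 2 := min_le_right _ _
  obtain ⟨S, hS⟩ : ∃ S : Finset ℕ, ‖x - projX S x‖ < η / 2 := by
    obtain ⟨S, hS⟩ := ((Metric.tendsto_nhds.1 (tendsto_projX x) (η / 2) (by positivity))).exists
    exact ⟨S, by rwa [dist_comm, dist_eq_norm] at hS⟩
  obtain ⟨E, hE, hEx⟩ := exists_closed_approx S x (η := η / 2 / (S.card + 1)) (by positivity)
  set z : X := ∑ n ∈ S, emb n (toXnL n (proj E ((toXnL n).symm (x n)))) with hz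
  have hzn : ∀ n, z n = if n ∈ S then toXnL n (proj E ((toXnL n).symm (x n))) else 0 := fun n => by
    simp only [hz, emb_apply, lp.coeFn_sum, lp.coeFn_single, Finset.sum_apply,
      Finset.sum_pi_single]
  have hxz : ‖x - z‖ ≤ η := by
    have h1 : ‖projX S x - z‖ ≤ η / 2 := by
      rw [projX_eq, hz, ← Finset.sum_sub_distrib]
      refine (norm_sum_le _ _).trans ?_
      have h2 : ∀ n ∈ S, ‖lp.single 2 n (x n) - emb n (toXnL n (proj E ((toXnL n).symm (x n))))‖
          ≤ η / 2 / (S.card + 1) := by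
        intro n hn
        rw [← emb_apply, ← map_sub, norm_emb]
        have : x n - toXnL n (proj E ((toXnL n).symm (x n)))
            = toXnL n ((toXnL n).symm (x n) - proj E ((toXnL n).symm (x n))) := by
          rw [map_sub, ContinuousLinearEquiv.apply_symm_apply]
        rw [this]
        exact (gauge2_le_norm' n _).trans (hEx n hn).le
      refine (Finset.sum_le_sum h2).trans ?_
      rw [Finset.sum_const, nsmul_eq_mul]
      rw [mul_div_assoc', div_le_iff₀ (by positivity)]
      nlinarith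
    calc ‖x - z‖ = ‖(x - projX S x) + (projX S x - z)‖ := by congr 1; abel
      _ ≤ ‖x - projX S x‖ + ‖projX S x - z‖ := norm_add_le _ _
      _ ≤ η := by linarith
  let L : X →L[ℝ] (S → E → ℝ) :=
    ContinuousLinearMap.pi fun n => ContinuousLinearMap.pi fun u => nodeCoord n.1 u.1
  refine ⟨LinearMap.ker L.toLinearMap, L.isClosed_ker, ?_, fun y hy hy1 => ?_⟩
  · exact Module.Finite.equiv (LinearMap.quotKerEquivRange L.toLinearMap).symm
  have hyL : L y = 0 := hy
  have hw : ∀ n ∈ S, ∀ u ∈ E, ((toXnL n).symm ((t • y) n)) u = 0 := by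
    intro n hn u hu
    have := congrFun (congrFun hyL ⟨n, hn⟩) ⟨u, hu⟩
    simp only [L, ContinuousLinearMap.pi_apply, nodeCoord_apply, Pi.zero_apply] at this
    simp [this]
  have hkey := midpoint_X S hE z (t • y)
    (fun n hn u hu => by
      rw [hzn, if_pos hn, ContinuousLinearEquiv.symm_apply_apply, proj_apply, if_neg hu])
    (fun n hn => by rw [hzn, if_neg hn]) hw
  rw [norm_smul, Real.norm_eq_abs, abs_of_pos ht, hy1, mul_one] at hkey
  have hzlow : 1 - η ≤ ‖z‖ := by
    have := norm_le_norm_add_norm_sub' x z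
    linarith
  set M := max ‖z + t • y‖ ‖z - t • y‖ with hM
  have hM0 : 0 ≤ M := le_max_of_le_left (norm_nonneg _)
  have hM1 : ‖z + t • y‖ ^ 2 ≤ M ^ 2 := pow_le_pow_left₀ (norm_nonneg _) (le_max_left _ _) 2
  have hM2 : ‖z - t • y‖ ^ 2 ≤ M ^ 2 := pow_le_pow_left₀ (norm_nonneg _) (le_max_right _ _) 2
  have hz2 : (1 - η) ^ 2 ≤ ‖z‖ ^ 2 := pow_le_pow_left₀ (by linarith) hzlow 2
  have hMr : r - η ≤ M := by
    refine (abs_le_of_sq_le_sq' ?_ hM0).2
    nlinarith
  have h1 : ‖z + t • y‖ ≤ ‖x + t • y‖ + η := by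
    refine (norm_le_norm_add_norm_sub' (z + t • y) (x + t • y)).trans ?_
    rw [show z + t • y - (x + t • y) = -(x - z) by abel, norm_neg]
    linarith
  have h2 : ‖z - t • y‖ ≤ ‖x - t • y‖ + η := by
    refine (norm_le_norm_add_norm_sub' (z - t • y) (x - t • y)).trans ?_
    rw [show z - t • y - (x - t • y) = -(x - z) by abel, norm_neg]
    linarith
  have h3 : M ≤ max ‖x + t • y‖ ‖x - t • y‖ + η :=
    max_le (h1.trans (add_le_add (le_max_left _ _) le_rfl))
      (h2.trans (add_le_add (le_max_right _ _) le_rfl))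
  linarith

lemma tendsto_child (n : ℕ) (f : StrongDual ℝ X) (s : T) :
    Tendsto (fun j : ℕ => f (emb n (toXnL n (e (s ++ [j]))))) atTop (𝓝 0) := by
  let g : StrongDual ℝ H := f.comp ((emb n).comp (toXnL n).toContinuousLinearMap)
  let v : H := (InnerProductSpace.toDual ℝ H).symm g
  have hv : ∀ j : ℕ, f (emb n (toXnL n (e (s ++ [j])))) = v (s ++ [j]) := by
    intro j
    change g (e (s ++ [j])) = _
    rw [← InnerProductSpace.toDual_symm_apply (𝕜 := ℝ) (x := e (s ++ [j])) (y := g), e,
      lp.inner_single_right]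
    simp [v]
  simp only [hv]
  have hsum : Summable (fun t : T => ‖v t‖ ^ 2) := by
    simpa only [ENNReal.toReal_ofNat, Real.rpow_two] using
      (lp.memℓp v).summable (by norm_num)
  have hcomp : Summable (fun j : ℕ => ‖v (s ++ [j])‖ ^ 2) :=
    hsum.comp_injective (i := fun j : ℕ => s ++ [j]) (fun a b hab => by simpa using hab)
  have h0 := hcomp.tendsto_atTop_zero
  have h1 := h0.sqrt
  simp only [Real.sqrt_sq (norm_nonneg _), Real.sqrt_zero] at h1
  exact tendsto_zero_iff_norm_tendsto_zero.2 h1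

/-- No equivalent norm on `X` is asymptotically uniformly convex. -/
theorem not_auc_X (N : Seminorm ℝ X) (c C : ℝ) (hc : 0 < c)
    (hN : ∀ x, c * ‖x‖ ≤ N x ∧ N x ≤ C * ‖x‖) :
    ¬ ∀ t : ℝ, 0 < t → ∃ δ > 0, ∀ x : X, N x = 1 → ∃ F : Submodule ℝ X,
      IsClosed (F : Set X) ∧ FiniteDimensional ℝ (X ⧸ F) ∧
        ∀ y ∈ F, N y = 1 → 1 + δ ≤ N (x + t • y) := by
  intro hauc
  have hnode : ∀ n s, ‖emb n (toXnL n (vec n s))‖ ≤ 1 := fun n s => by
    rw [norm_emb, norm_toXnL]; exact gauge2_vec_le n s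
  have hnode' : ∀ n s, 1 ≤ ‖emb n (toXnL n (vec n s))‖ := fun n s => by
    rw [norm_emb, norm_toXnL]
    refine le_trans (le_of_eq ?_) (abs_apply_le_gauge2 n (vec n s) [])
    simp [vec_apply]
  have hC : 0 < C := by
    have h0 := hN (emb 0 (toXnL 0 (vec 0 [])))
    nlinarith [hnode 0 [], hnode' 0 []]
  obtain ⟨δ, hδ, hF⟩ := hauc (c / (2 * C)) (by positivity)
  have grow : ∀ n k, k ≤ n → ∃ s : T, s.length = k ∧
      c * (1 + δ / 2) ^ k ≤ N (emb n (toXnL n (vec n s))) := by
    intro n k
    induction k with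
    | zero =>
      intro _
      refine ⟨[], rfl, ?_⟩
      have := (hN (emb n (toXnL n (vec n [])))).1
      nlinarith [hnode' n []]
    | succ k ih =>
      intro hk
      obtain ⟨s, hs, hgs⟩ := ih (by omega)
      set xs := emb n (toXnL n (vec n s)) with hxs
      set L := N xs with hL
      have hLc : c ≤ L := le_trans (by nlinarith [hnode' n s]) (hN xs).1
      have hL0 : 0 < L := lt_of_lt_of_le hc hLc
      have hLC : L ≤ C := (hN xs).2.trans (by nlinarith [hnode n s])
      obtain ⟨F, hFc, hFd, hFy⟩ := hF (L⁻¹ • xs) (by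
        rw [map_smul_eq_mul, Real.norm_eq_abs, abs_inv, abs_of_pos hL0]
        exact inv_mul_cancel₀ hL0.ne')
      have := hFc
      have := hFd
      let q : X →L[ℝ] X ⧸ F := F.mkQL
      obtain ⟨R, hR⟩ := q.exists_rightInverse_of_surjective (by
        exact LinearMap.range_eq_top.2 (Submodule.mkQ_surjective F))
      let ee : ℕ → X := fun j => emb n (toXnL n (e (s ++ [j])))
      let b := Module.finBasis ℝ (X ⧸ F)
      have hq : Tendsto (fun j => q (ee j)) atTop (𝓝 0) := by
        have h1 : Tendsto (fun j => ∑ i, b.repr (q (ee j)) i • b i) atTop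
            (𝓝 (∑ i, (0 : ℝ) • b i)) :=
          tendsto_finsetSum _ fun i _ =>
            (tendsto_child n ((LinearMap.toContinuousLinearMap (b.coord i)).comp q) s).smul_const _
        simpa [b.sum_repr] using h1
      have hRq : Tendsto (fun j => ‖R (q (ee j))‖) atTop (𝓝 0) := by
        simpa using ((R.continuous.tendsto 0).comp hq).norm
      have hsmall : ∀ᶠ j in atTop, ‖R (q (ee j))‖ < min (1 / 2) (c * δ / (2 * C)) :=
        hRq.eventually_lt_const (lt_min (by norm_num) (by positivity))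
      obtain ⟨j, hj⟩ := hsmall.exists
      obtain ⟨hj1, hj2⟩ := lt_min_iff.1 hj
      set d := R (q (ee j)) with hd
      set y := ee j - d with hy
      have hyF : y ∈ F := by
        rw [← Submodule.Quotient.mk_eq_zero]
        change q y = 0
        rw [hy, map_sub, hd, show q (R (q (ee j))) = q (ee j) from DFunLike.congr_fun hR _, sub_self]
      have hee : 1 ≤ ‖ee j‖ := by
        change 1 ≤ ‖emb n (toXnL n (e (s ++ [j])))‖
        rw [norm_emb, norm_toXnL]
        refine le_trans (le_of_eq ?_) (abs_apply_le_gauge2 n _ (s ++ [j]))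
        simp [e_apply]
      have hy2 : 1 / 2 ≤ ‖y‖ := by
        have := norm_le_norm_add_norm_sub' (ee j) d
        rw [← hy] at this
        linarith
      have hNy : c / 2 ≤ N y := le_trans (by nlinarith) (hN y).1
      have hNy0 : 0 < N y := lt_of_lt_of_le (by positivity) hNy
      obtain ⟨u, hu⟩ : ∃ z : X, z = (N y)⁻¹ • y := ⟨_, rfl⟩
      have hu1 : N u = 1 := by
        rw [hu, map_smul_eq_mul, Real.norm_eq_abs, abs_inv, abs_of_pos hNy0]
        exact inv_mul_cancel₀ hNy0.ne'
      set t := c / (2 * C) with ht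
      obtain ⟨x', hx'⟩ : ∃ z : X, z = L⁻¹ • xs := ⟨_, rfl⟩
      have hx1 : N x' = 1 := by
        rw [hx', map_smul_eq_mul, Real.norm_eq_abs, abs_inv, abs_of_pos hL0]
        exact inv_mul_cancel₀ hL0.ne'
      have hbase := hFy u (hu ▸ F.smul_mem _ hyF) hu1
      rw [← hx'] at hbase
      set τ := N y / L with hτ
      have htτ : t ≤ τ := by
        rw [ht, hτ, div_le_div_iff₀ (by positivity) hL0]
        nlinarith
      have ht0 : 0 < t := by positivity
      set lam := t / τ with hlam
      have hτ0 : 0 < τ := by positivity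
      have hlam0 : 0 < lam := by positivity
      have hlam1 : lam ≤ 1 := (div_le_one hτ0).2 htτ
      have hconv : x' + t • u = (1 - lam) • x' + lam • (x' + τ • u) := by
        rw [smul_add, smul_smul, show lam * τ = t from div_mul_cancel₀ _ hτ0.ne', sub_smul,
          one_smul]
        abel
      rw [hconv] at hbase
      have hle := hbase.trans (map_add_le_add N _ _)
      rw [map_smul_eq_mul, map_smul_eq_mul, hx1, Real.norm_eq_abs, Real.norm_eq_abs,
        abs_of_nonneg (by linarith : (0:ℝ) ≤ 1 - lam), abs_of_pos hlam0] at hle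
      have hfar : 1 + δ ≤ N (x' + τ • u) := by nlinarith
      have hscale : xs + y = L • (x' + τ • u) := by
        rw [hx', hu, hτ, smul_add, smul_smul, smul_smul, smul_smul]
        field_simp
        simp
      have hbig : L * (1 + δ) ≤ N (xs + y) := by
        rw [hscale, map_smul_eq_mul, Real.norm_eq_abs, abs_of_pos hL0]
        exact mul_le_mul_of_nonneg_left hfar hL0.le
      have hlen : (s ++ [j]).length = k + 1 := by simp [hs]
      refine ⟨s ++ [j], hlen, ?_⟩
      have hvec : emb n (toXnL n (vec n (s ++ [j]))) = xs + ee j := by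
        have h := vec_sub_parent n (t := s ++ [j]) (by simp) (by omega)
        rw [List.dropLast_concat] at h
        rw [hxs, ← map_add, ← map_add, ← h, add_sub_cancel]
      have hsub := map_add_le_add N (xs + ee j) (-d)
      rw [map_neg_eq_map, show xs + ee j + -d = xs + y by rw [hy]; abel] at hsub
      have hdN : N d ≤ c * δ / 2 := by
        refine (hN d).2.trans ((mul_le_mul_of_nonneg_left hj2.le hC.le).trans (le_of_eq ?_))
        field_simp
      rw [hvec, pow_succ]
      nlinarith
  obtain ⟨m, hm⟩ := ((tendsto_pow_atTop_atTop_of_one_lt (r := 1 + δ / 2) (by linarith)).eventually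
    (eventually_gt_atTop (C / c))).exists
  obtain ⟨s, -, hs⟩ := grow m m le_rfl
  rw [div_lt_iff₀ hc] at hm
  have h1 := (hN (emb m (toXnL m (vec m s)))).2
  nlinarith [hnode m s]

end

end Vale.Agent.P069
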