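import Vale.Agent.P069.Key

/-!
# P069: the summands and their l2-sum
-/

namespace Vale.Agent.P069

open Finset Filter Topology

noncomputable section

/-- The `n`-th summand: the functions on the tree with the norm `gauge2 n`. -/
def Xn (_n : ℕ) : Type := H

/-- The identity map onto the `n`-th summand. -/
def toXnFun (n : ℕ) (c : H) : Xn n := c

instance (n : ℕ) : AddCommGroup (Xn n) := inferInstanceAs (AddCommGroup H)

instance (n : ℕ) : Module ℝ (Xn n) := inferInstanceAs (Module ℝ H)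

/-- The linear identification of `H` with the `n`-th summand. -/
def toXn (n : ℕ) : H ≃ₗ[ℝ] Xn n := LinearEquiv.refl ℝ H

instance (n : ℕ) : Norm (Xn n) := ⟨fun c => gauge2 n ((toXn n).symm c)⟩

lemma norm_toXn (n : ℕ) (c : H) : ‖toXn n c‖ = gauge2 n c := rfl

lemma xnCore (n : ℕ) : NormedSpace.Core ℝ (Xn n) where
  norm_nonneg c := gauge2_nonneg n _
  norm_smul a c := by
    change gauge2 n ((toXn n).symm (a • c)) = ‖a‖ * gauge2 n ((toXn n).symm c)
    rw [map_smul, gauge2_smul, Real.norm_eq_abs]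
  norm_triangle c d := by
    change gauge2 n ((toXn n).symm (c + d)) ≤ _
    rw [map_add]
    exact gauge2_add n _ _
  norm_eq_zero_iff c := by
    change gauge2 n ((toXn n).symm c) = 0 ↔ c = 0
    refine ⟨fun h => ?_, fun h => by rw [h, map_zero, gauge2_zero]⟩
    have h1 := norm_le_gauge2 n ((toXn n).symm c)
    rw [h, mul_zero] at h1
    exact (LinearEquiv.map_eq_zero_iff (toXn n).symm).1 (norm_le_zero_iff.1 h1)

instance (n : ℕ) : NormedAddCommGroup (Xn n) := NormedAddCommGroup.ofCore (xnCore n)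

instance (n : ℕ) : NormedSpace ℝ (Xn n) := NormedSpace.ofCore (xnCore n)

/-- The identification as an isomorphism of normed spaces. -/
def toXnL (n : ℕ) : H ≃L[ℝ] Xn n where
  toLinearEquiv := toXn n
  continuous_toFun := AddMonoidHomClass.continuous_of_bound (toXn n) 1 fun c => by
    rw [one_mul, norm_toXn]; exact gauge2_le_norm n c
  continuous_invFun := AddMonoidHomClass.continuous_of_bound (toXn n).symm ((n : ℝ) + 1)
    fun c => norm_le_gauge2 n _

lemma norm_toXnL (n : ℕ) (c : H) : ‖toXnL n c‖ = gauge2 n c := rfl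

lemma norm_toXnL_le (n : ℕ) (c : H) : ‖toXnL n c‖ ≤ ‖c‖ := gauge2_le_norm n c

instance (n : ℕ) : CompleteSpace (Xn n) :=
  (completeSpace_congr (e := (toXnL n).toEquiv) (toXnL n).isUniformEmbedding).1 inferInstance

lemma reflexive_H : Function.Surjective (NormedSpace.inclusionInDoubleDual ℝ H) := by
  intro φ
  let g : StrongDual ℝ H := φ.comp (innerSL ℝ : H →L[ℝ] StrongDual ℝ H)
  refine ⟨(InnerProductSpace.toDual ℝ H).symm g, ?_⟩
  ext f
  obtain ⟨y, rfl⟩ := (InnerProductSpace.toDual ℝ H).surjective f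
  rw [NormedSpace.dual_def, InnerProductSpace.toDual_apply_apply, real_inner_comm,
    InnerProductSpace.toDual_symm_apply]
  rfl

lemma reflexive_Xn (n : ℕ) : Function.Surjective (NormedSpace.inclusionInDoubleDual ℝ (Xn n)) := by
  intro ψ
  obtain ⟨x, hx⟩ := reflexive_H
    (ψ.comp ((ContinuousLinearMap.compL ℝ (Xn n) H ℝ).flip (toXnL n).symm.toContinuousLinearMap))
  refine ⟨toXnL n x, ?_⟩
  ext f
  have h := DFunLike.congr_fun hx (f.comp (toXnL n).toContinuousLinearMap)
  simp only [NormedSpace.dual_def, ContinuousLinearMap.comp_apply,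
    ContinuousLinearMap.flip_apply, ContinuousLinearMap.compL_apply,
    ContinuousLinearEquiv.coe_coe] at h
  rw [NormedSpace.dual_def, h, ContinuousLinearMap.comp_assoc,
    ContinuousLinearEquiv.coe_comp_coe_symm, ContinuousLinearMap.comp_id]

/-- The counterexample space. -/
abbrev X : Type := lp Xn 2

/-- The embedding of the `n`-th summand. -/
def emb (n : ℕ) : Xn n →L[ℝ] X := lp.singleContinuousLinearMap ℝ Xn 2 n

/-- The projection to the `n`-th summand. -/
def coord (n : ℕ) : X →L[ℝ] Xn n := lp.evalCLM ℝ Xn 2 n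

/-- Projection to finitely many summands. -/
def projX (S : Finset ℕ) : X →L[ℝ] X := ∑ n ∈ S, (emb n).comp (coord n)

lemma coord_apply (n : ℕ) (x : X) : coord n x = x n := rfl

lemma emb_apply (n : ℕ) (a : Xn n) : emb n a = lp.single 2 n a := rfl

lemma norm_emb (n : ℕ) (a : Xn n) : ‖emb n a‖ = ‖a‖ := lp.norm_single (by norm_num) n a

lemma projX_eq (S : Finset ℕ) (x : X) : projX S x = ∑ n ∈ S, lp.single 2 n (x n) := by
  simp only [projX, _root_.sum_apply, ContinuousLinearMap.comp_apply, emb_apply,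
    coord_apply]

lemma projX_apply (S : Finset ℕ) (x : X) (n : ℕ) :
    (projX S x) n = if n ∈ S then x n else 0 := by
  rw [projX_eq]
  simp only [lp.coeFn_sum, lp.coeFn_single, Finset.sum_apply, Finset.sum_pi_single]

lemma hasSum_sq (x : X) : HasSum (fun n => ‖x n‖ ^ 2) (‖x‖ ^ 2) := by
  simpa only [ENNReal.toReal_ofNat, Real.rpow_two] using
    lp.hasSum_norm (p := 2) (by norm_num) x

lemma norm_projX_le (S : Finset ℕ) (x : X) : ‖projX S x‖ ≤ ‖x‖ := by
  refine lp.norm_mono (by norm_num) fun n => ?_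
  rw [projX_apply]; split <;> simp

lemma norm_sub_projX_le (S : Finset ℕ) (x : X) : ‖x - projX S x‖ ≤ ‖x‖ := by
  refine lp.norm_mono (by norm_num) fun n => ?_
  rw [lp.coeFn_sub, Pi.sub_apply, projX_apply]; split <;> simp

lemma norm_sq_add_of_disjoint {x y : X} (S : Finset ℕ) (hx : ∀ n ∉ S, x n = 0)
    (hy : ∀ n ∈ S, y n = 0) : ‖x + y‖ ^ 2 = ‖x‖ ^ 2 + ‖y‖ ^ 2 := by
  refine (hasSum_sq (x + y)).unique (((hasSum_sq x).add (hasSum_sq y)).congr_fun fun n => ?_)
  rw [lp.coeFn_add, Pi.add_apply]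
  by_cases h : n ∈ S
  · simp [hy n h]
  · simp [hx n h]

lemma tendsto_projX (x : X) : Tendsto (fun S => projX S x) atTop (𝓝 x) := by
  simp only [projX_eq]
  exact lp.hasSum_single (by norm_num) x

lemma tendsto_dual_projX (f : StrongDual ℝ X) :
    Tendsto (fun S => f.comp (projX S)) atTop (𝓝 f) := by
  rw [Metric.tendsto_atTop]
  intro η hη
  set s : ℝ := η / 2 / (‖f‖ + 1) with hs
  have hs0 : 0 < s := by positivity
  have hfs : ‖f‖ * s ≤ η / 2 := by
    have h1 : s * (‖f‖ + 1) = η / 2 := div_mul_cancel₀ _ (by positivity)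
    nlinarith
  obtain ⟨u, hu1, hfu⟩ : ∃ u : X, ‖u‖ ≤ 1 ∧ ‖f‖ - s * η / 4 < f u := by
    obtain ⟨u, hu, hfu⟩ := f.exists_lt_apply_of_lt_opNorm
      (show ‖f‖ - s * η / 4 < ‖f‖ by nlinarith)
    rw [Real.norm_eq_abs] at hfu
    rcases le_or_gt 0 (f u) with h | h
    · exact ⟨u, hu.le, by rwa [abs_of_nonneg h] at hfu⟩
    · exact ⟨-u, by simpa using hu.le, by rwa [abs_of_neg h, ← map_neg] at hfu⟩
  have htend : Tendsto (fun S => f (projX S u)) atTop (𝓝 (f u)) :=
    (f.continuous.tendsto u).comp (tendsto_projX u)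
  obtain ⟨S0, hS0⟩ := eventually_atTop.1 (htend.eventually_const_lt hfu)
  refine ⟨S0, fun S hS => ?_⟩
  have hbound : ∀ y : X, ‖y‖ ≤ 1 → f (y - projX S y) ≤ η / 2 := by
    intro y hy
    have hsq : ‖projX S u + s • (y - projX S y)‖ ^ 2 ≤ (1 + s ^ 2 / 2) ^ 2 := by
      rw [norm_sq_add_of_disjoint S (fun n hn => by rw [projX_apply, if_neg hn])
        (fun n hn => by rw [lp.coeFn_smul, Pi.smul_apply, lp.coeFn_sub, Pi.sub_apply, projX_apply, if_pos hn, sub_self, smul_zero]), norm_smul, mul_pow, Real.norm_eq_abs, sq_abs]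
      have a1 := (norm_projX_le S u).trans hu1
      have a2 := (norm_sub_projX_le S y).trans hy
      nlinarith [norm_nonneg (projX S u), norm_nonneg (y - projX S y), sq_nonneg (s ^ 2),
        mul_le_mul_of_nonneg_left (pow_le_pow_left₀ (norm_nonneg _) a2 2) (sq_nonneg s),
        pow_le_pow_left₀ (norm_nonneg _) a1 2]
    have hn : ‖projX S u + s • (y - projX S y)‖ ≤ 1 + s ^ 2 / 2 :=
      (abs_le_of_sq_le_sq' hsq (by positivity)).2
    have hf := (le_abs_self _).trans (f.le_opNorm (projX S u + s • (y - projX S y)))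
    rw [map_add, map_smul, smul_eq_mul] at hf
    have h1 := mul_le_mul_of_nonneg_left hn (norm_nonneg f)
    have h2 := hS0 S hS
    have h3 := mul_le_mul_of_nonneg_left hfs hs0.le
    nlinarith
  rw [dist_eq_norm]
  refine lt_of_le_of_lt (ContinuousLinearMap.opNorm_le_of_unit_norm (by positivity) ?_)
    (half_lt_self hη)
  intro y hy
  rw [Real.norm_eq_abs, _root_.sub_apply, ContinuousLinearMap.comp_apply,
    ← map_sub, abs_le]
  have h1 := hbound y hy.le
  have h2 := hbound (-y) (by simpa using hy.le)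
  simp only [map_neg, map_sub] at h1 h2 ⊢
  constructor <;> linarith

lemma reflexive_X : Function.Surjective (NormedSpace.inclusionInDoubleDual ℝ X) := by
  intro ψ
  choose x hx using fun n => reflexive_Xn n
    (ψ.comp ((ContinuousLinearMap.compL ℝ X (Xn n) ℝ).flip (coord n)))
  have hxf : ∀ n (f : StrongDual ℝ (Xn n)), f (x n) = ψ (f.comp (coord n)) := fun n f => by
    simpa using DFunLike.congr_fun (hx n) f
  have hpart : ∀ (S : Finset ℕ) (g : StrongDual ℝ X),
      g (∑ n ∈ S, lp.single 2 n (x n)) = ψ (g.comp (projX S)) := by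
    intro S g
    simp only [projX, ContinuousLinearMap.comp_finsetSum, map_sum]
    exact Finset.sum_congr rfl fun n _ => hxf n (g.comp (emb n))
  have hnorm : ∀ S : Finset ℕ, ‖∑ n ∈ S, lp.single 2 n (x n)‖ ≤ ‖ψ‖ := by
    intro S
    obtain ⟨g, hg1, hgu⟩ := exists_dual_vector'' ℝ (∑ n ∈ S, lp.single 2 n (x n) : X)
    rw [hpart] at hgu
    refine le_of_eq_of_le hgu.symm ((le_abs_self _).trans ((ψ.le_opNorm _).trans ?_))
    refine mul_le_of_le_one_right (norm_nonneg _) ?_
    refine (g.opNorm_comp_le (projX S)).trans (mul_le_one₀ hg1 (norm_nonneg _) ?_)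
    exact ContinuousLinearMap.opNorm_le_bound _ zero_le_one fun y => by
      simpa using norm_projX_le S y
  have hmem : Memℓp x 2 := memℓp_gen' (C := ‖ψ‖ ^ 2) fun S => by
    have h := lp.norm_sum_single (p := 2) (by norm_num) x S
    simp only [ENNReal.toReal_ofNat, Real.rpow_two] at h ⊢
    rw [← h]
    exact pow_le_pow_left₀ (norm_nonneg _) (hnorm S) 2
  refine ⟨⟨x, hmem⟩, ?_⟩
  ext f
  rw [NormedSpace.dual_def]
  have h1 : Tendsto (fun S : Finset ℕ => f (∑ n ∈ S, lp.single 2 n (x n))) atTop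
      (𝓝 (f ⟨x, hmem⟩)) :=
    (f.continuous.tendsto _).comp (lp.hasSum_single (by norm_num) (⟨x, hmem⟩ : X))
  have h2 : Tendsto (fun S : Finset ℕ => f (∑ n ∈ S, lp.single 2 n (x n))) atTop (𝓝 (ψ f)) := by
    simp only [hpart]
    exact (ψ.continuous.tendsto f).comp (tendsto_dual_projX f)
  exact tendsto_nhds_unique h1 h2

end

end Vale.Agent.P069
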